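import Vale.Agent.P253Y.Big.Sk
import Vale.Agent.P253Y.G.Defs2
import Vale.Agent.P253Y.Gl.Sk
import Vale.Agent.P253Y.Kum.Q0
import Vale.Agent.P253Y.F.Alg
import Vale.Agent.P253Y.H.Defs
import Vale.Agent.P253Y.H2.Defs

/-!
# P253Y: the conjecture of Yau for surfaces. Statements of the blocks and assembly.
-/

open scoped Manifold ContDiff Bundle ENNReal Topology
open Bundle IsManifold MeasureTheory Set Metric Filter Vale.Agent.P253.Mfd
open Vale.Agent.P272.K (Cm Chart)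
open Vale.Agent.P253Z Vale.Agent.P253Z.T2
open Vale.Agent.P297Z Vale.Agent.P297Z.Sf
open Vale.Agent.P253Y.Res (Off Snc)
open Vale.Agent.P253Y.Gl (Pc Ot Psd)

noncomputable section

namespace Vale.Agent.P253Y

section alg

variable {K : Type} [Field K] [Algebra ℂ K]

/-- The logarithmic canonical divisor is not pseudo-effective. -/
def Nb (S : Surf K) (D : Finset (Crv S.W)) : Prop :=
  ∀ Γ : Sf.Div S.W, ∃ n₀ : ℕ, ∀ n : ℕ, n₀ ≤ n → H0 (Γ + n • Mp.lg S D) = ⊥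

/-- The bound of Noether. -/
def N3 (S : Surf K) : Prop :=
  ∀ (n : ℕ) (A : Fin n → Sf.Div S.W), (∀ X : Sf.Div S.W, (∀ i, inter X (A i) = 0) → Mp.Nz X) →
    7 ≤ inter S.kap S.kap + n

theorem off_pt {S : Surf K} {D : Finset (Crv S.W)} {C : Crv S.W} (h : C ∉ D) :
    ∃ x : Pt S.W, x.On C ∧ Off D x := by
  have hA := S.all
  obtain ⟨i, hi⟩ := hA.crv_cover C
  obtain ⟨x, x1, x2⟩ := (hA.inf_pt C _ (S.x_mem i) hi).exists_notMem_finite
    (D.finite_toSet.biUnion fun X hX => hA.fin_meet C X fun e => h (e ▸ hX))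
  exact ⟨x, x1.1, fun X hX o => x2 (Set.mem_biUnion hX ⟨x1.1, o⟩)⟩

end alg

variable {M : Type} [MetricSpace M] [ChartedSpace (Cm 2) M]
  [RiemannianBundle (fun x : M => TangentSpace 𝓘(ℝ, Cm 2) x)] [MeasurableSpace M]

/-- A statement for all frames and all fields of ratios. -/
def ForF (μ : Measure M) (P : ∀ (p : M) (F : Fr 2 μ p) (K : Type) [Field K] [Algebra ℂ K],
    FF 2 F.Tame K → Prop) : Prop :=
  ∀ (p : M) (F : Fr 2 μ p) (K : Type) [Field K] [Algebra ℂ K] (ff : FF 2 F.Tame K), P p F K ff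

/-- **EO** (blocks C, D, E): the orthogonal of the boundary -/
def EO (μ : Measure M) : Prop := ForF μ fun _ _ K _ _ ff =>
  ∀ (S : Surf K) (D : Finset (Crv S.W)), Pc ff.O S D → Psd S D

/-- **GLUE** (blocks T3, B): the compactification -/
def GLUE (μ : Measure M) : Prop := ForF μ fun _ _ K _ _ ff =>
  (∀ (S : Surf K) (D : Finset (Crv S.W)), Pc ff.O S D → Psd S D) →
  ∃ (S : Surf K) (D : Finset (Crv S.W)), Snc S D ∧ Pc ff.O S D ∧ Ot ff.O S D

/-- **NO** (blocks C, D, E): the bound of Noether -/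
def NO (μ : Measure M) : Prop := ForF μ fun _ _ K _ _ ff =>
  ∀ (S : Surf K) (D : Finset (Crv S.W)), Snc S D → Pc ff.O S D → Ot ff.O S D → S.Good →
    (∀ n : ℕ, 1 ≤ n → H0 (n • S.kap) = ⊥) → N3 S

/-- **NB** (block F) -/
def NB (μ : Measure M) : Prop := ∀ p : M, ∃ F : Fr 2 μ p,
  ∀ (K : Type) [Field K] [Algebra ℂ K] (ff : FF 2 F.Tame K) (S : Surf K) (D : Finset (Crv S.W)),
    Snc S D → Pc ff.O S D → Ot ff.O S D → Nb S D

/-- **CO** (block F): the boundary is connected -/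
def CO (μ : Measure M) : Prop := ForF μ fun _ _ K _ _ ff =>
  ∀ (S : Surf K) (D : Finset (Crv S.W)), Pc ff.O S D → Ot ff.O S D → Mp.Conn D

/-- **KU**: roots of functions -/
def KU (μ : Measure M) : Prop := ForF μ fun _ _ K _ _ ff =>
  ∀ (S : Surf K) (D : Finset (Crv S.W)), Pc ff.O S D → Ot ff.O S D → KUMS S D

/-- **EN** (block H): no point of the plane is missing -/
def EN (μ : Measure M) : Prop := ForF μ fun _ _ K _ _ ff =>
  ∀ (S : Surf K) (D : Finset (Crv S.W)) (x y : K), Pc ff.O S D → Ot ff.O S D →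
    H.Plane (H.rings D) x y → H.Cof (H.rings D) x y →
    ∃ Φ : M ≃ₘ^1⟮𝓘(ℂ, Cm 2), 𝓘(ℂ, Cm 2)⟯ Cm 2, ∀ q, Φ q = ![ff.val x q, ff.val y q]

/-- The assembly for one (simply connected) manifold. -/
theorem uni_of [Nonempty M] {μ : Measure M} (a : B1a 2 M) (ffe : FFE 2 M) (eo : EO μ)
    (glue : GLUE μ) (no : NO μ) (nb : NB μ) (co : CO μ) (ku : KU μ) (aff : AFF 2 μ)
    (big : Big.BIGK 2 μ) (perp : Mp.PERP) (mmp : Mp.MMP) (h1 : H.H1A) (en : EN μ) :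
    H2.UNI 2 μ := by
  obtain ⟨p⟩ := ‹Nonempty M›
  obtain ⟨F, hF⟩ := nb p
  obtain ⟨K, _, _, ⟨ff⟩⟩ := ffe F.Tame (fun _ _ h => h.1)
    ⟨one_tame F, fun _ _ _ hs _ ht => mul_tame a F hs ht⟩
  obtain ⟨S, D, s1, s2, s3⟩ := glue p F K ff (eo p F K ff)
  have k := ku p F K ff S D s2 s3
  have b := hF K ff S D s1 s2 s3
  have b' := P253Y.F.pg_of_nb b
  have g := k.good (by simpa using b' 1 le_rfl)
  obtain ⟨φ₀, φ, d1, d2, d3, d4⟩ := big p F (aff p F) K ff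
  have hc : Mp.Cls S D := ⟨g.chi_zero.ge, b, perp K S D φ₀ φ d1 (fun C hC => by
    obtain ⟨x, x1, x2⟩ := off_pt hC
    obtain ⟨m, hm⟩ := s2 x x2
    exact ⟨x1 _ (hm ▸ d2 m), fun i => x1 _ (hm ▸ d3 i m)⟩) d4 (eo p F K ff S D s2),
    co p F K ff S D s2 s3, no p F K ff S D s1 s2 s3 g b'⟩
  obtain ⟨x, y, e1, e2⟩ := h1 K S D hc k (mmp K S D hc)
  obtain ⟨Φ, hΦ⟩ := en p F K ff S D x y s2 s3 e1 e2
  refine ⟨p, F, Φ, fun i => ?_⟩
  obtain ⟨m, s, hs, t, ht, t0, h⟩ := ff.surj (![x, y] i)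
  refine ⟨m, s, hs, t, ht, t0, fun q hq => ?_⟩
  rw [hΦ, ← (h q hq).2]
  fin_cases i <;> rfl

end Vale.Agent.P253Y
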