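import Vale.Agent.P253Y.F.All
import Vale.Agent.P253Y.An.Top
import Vale.Agent.P253Y.Gl.Main
import Vale.Agent.P253Y.T3.Main
import Vale.Agent.P253Y.Kum.Ku
import Vale.Agent.P253Y.H.Main
import Vale.Agent.P253Y.H.En
import Vale.Agent.P253Y.H2.Main
import Vale.Agent.P253Y.Big.Alg
import Vale.Agent.P253Y.Big.Bk
import Vale.Agent.P253Y.Big.Fr3
import Vale.Agent.P253Y.Big.Lim
import Vale.Agent.P253Y.Big.Orf
import Vale.Agent.P253Y.G.Asm
import Vale.Agent.P253Y.G.Adj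
import Vale.Agent.P253Y.G.Ari
import Vale.Agent.P253Y.G.Bdof
import Vale.Agent.P253Y.G.Comb
import Vale.Agent.P253Y.G.Euc
import Vale.Agent.P253Y.G.Fork
import Vale.Agent.P253Y.G.Geo
import Vale.Agent.P253Y.G.Noh
import Vale.Agent.P253Y.G.Pen
import Vale.Agent.P253Y.G.Perp
import Vale.Agent.P253Y.G.Pos
import Vale.Agent.P253Y.G.Step
import Vale.Agent.P253Y.G.Twig

/-!
# P253Y: the conjecture of Yau for simply connected surfaces
-/

open scoped Manifold ContDiff Bundle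
open Bundle MeasureTheory Vale.Agent.P253.Mfd
open Vale.Agent.P272.K (Cm)
open Vale.Agent.P253Z Vale.Agent.P253Z.T2
open Vale.Agent.P297Z.Sf

namespace Vale.Agent.P253Y

namespace MainH

theorem mmp : Mp.MMP :=
  Mp.mmp_of Mp.geo1 Mp.geo2 Mp.bdof Mp.pos Mp.dep Mp.pen Mp.euc Mp.noh Mp.step Mp.twig Mp.comb
    Mp.adjc (Mp.fork Mp.ari)

variable {M : Type} [MetricSpace M] [ChartedSpace (Cm 2) M] [IsManifold 𝓘(ℂ, Cm 2) 1 M]
  [IsManifold 𝓘(ℝ, Cm 2) ∞ M] [RiemannianBundle fun x : M => TangentSpace 𝓘(ℝ, Cm 2) x]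
  [IsContMDiffRiemannianBundle 𝓘(ℝ, Cm 2) ∞ (Cm 2) fun x : M => TangentSpace 𝓘(ℝ, Cm 2) x]
  [IsRiemannianManifold 𝓘(ℝ, Cm 2) M] [CompleteSpace M] [ConnectedSpace M] [NoncompactSpace M]
  [MeasurableSpace M] [BorelSpace M] {μ : Measure M}

theorem bigk (c : Ctx 2 μ) : Big.BIGK 2 μ := by
  have h := all c
  have a := h.a
  exact Big.bigk a (et a) (Big.alg a h.jet (Big.fr3 a h.b (ctx_wt c) (rb c.kahler a h.b) (ctx_hj c)
    (gr a h.b h.v (ctx_mv c) (bg c a h.b))) (Big.lim' a) (Big.orf a (tc c))) (T3.ratAll c)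

theorem uni (c : Ctx 2 μ) [SimplyConnectedSpace M] : H2.UNI 2 μ :=
  uni_of (all c).a (ffe (all c).a) (An.eo c) (Gl.glue c) (An.no c) (F.nb c) (F.co c)
    (Kum.ku (all c).a (aff c) (T3.lagAll c)) (aff c) (bigk c) Mp.perp mmp H.h1a
    (H.en_of (all c) (fun _ _ _ _ _ ff => F.jet (all c) ff) (F.end1 c.kahler c.pos))

end MainH

theorem sc2 : H2.SC 2 := fun _ _ _ _ _ _ _ _ _ _ _ _ _ _ c _ => MainH.uni c

end Vale.Agent.P253Y
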